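import Mathlib.Analysis.Normed.Module.DoubleDual
import Mathlib.Analysis.LocallyConvex.Separation
import Mathlib.Analysis.Seminorm
import Mathlib.Topology.Algebra.Module.FiniteDimension
import Mathlib.Tactic

/-! The theorems of Goldstine and of Milman and Pettis, the latter for an equivalent uniformly
convex seminorm given on a dense subspace. -/

set_option linter.all false

open Filter Topology Set

namespace Vale.Agent.N079B

variable {W : Type*} [NormedAddCommGroup W] [NormedSpace ℝ W]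

theorem goldstine (Φ : StrongDual ℝ (StrongDual ℝ W)) (F : Finset (StrongDual ℝ W)) {ε : ℝ}
    (hε : 0 < ε) : ∃ w : W, ‖w‖ ≤ ‖Φ‖ ∧ ∀ f ∈ F, |f w - Φ f| < ε := by
  classical
  let A : W →L[ℝ] (F → ℝ) := ContinuousLinearMap.pi fun f => (f : StrongDual ℝ W)
  let K : Set (F → ℝ) := A '' Metric.closedBall 0 ‖Φ‖
  have hK : Convex ℝ K := (convex_closedBall (0 : W) ‖Φ‖).linear_image (A : W →ₗ[ℝ] (F → ℝ))
  let p : F → ℝ := fun f => Φ f
  have hp : p ∈ closure K := by
    by_contra hp
    obtain ⟨c, u, h1, h2⟩ := geometric_hahn_banach_closed_point hK.closure isClosed_closure hp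
    let g : StrongDual ℝ W := c.comp A
    have hc : ∀ v : F → ℝ, c v = ∑ f : F, v f * c (Pi.single f 1) := by
      intro v
      conv_lhs => rw [← Finset.univ_sum_single v]
      rw [map_sum]
      refine Finset.sum_congr rfl fun f _ => ?_
      have : (Pi.single f (v f) : F → ℝ) = v f • (Pi.single f 1 : F → ℝ) := by
        rw [← Pi.single_smul]; simp
      rw [this, map_smul, smul_eq_mul]
    have hg : g = ∑ f : F, c (Pi.single f 1) • (f : StrongDual ℝ W) := by
      ext w
      simp only [g, ContinuousLinearMap.comp_apply, ContinuousLinearMap.sum_apply,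
        ContinuousLinearMap.smul_apply, smul_eq_mul]
      rw [hc]
      refine Finset.sum_congr rfl fun f _ => ?_
      simp [A, mul_comm]
    have hΦ : Φ g = c p := by
      rw [hg, map_sum, hc p]
      refine Finset.sum_congr rfl fun f _ => ?_
      rw [map_smul, smul_eq_mul, mul_comm]
    have hu0 : 0 < u := by
      have := h1 0 (subset_closure ⟨0, Metric.mem_closedBall_self Φ.opNorm_nonneg, map_zero _⟩)
      simpa using this
    have hb : ∀ w : W, ‖w‖ ≤ ‖Φ‖ → |g w| ≤ u := by
      intro w hw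
      have a1 := h1 (A w) (subset_closure ⟨w, by simpa using hw, rfl⟩)
      have a2 := h1 (A (-w)) (subset_closure ⟨-w, by simpa using hw, rfl⟩)
      rw [map_neg, map_neg] at a2
      exact abs_le.2 ⟨by simp only [g, ContinuousLinearMap.comp_apply]; linarith, a1.le⟩
    have h3 : ‖Φ‖ * ‖g‖ ≤ u := by
      rcases Φ.opNorm_nonneg.eq_or_lt with h0 | h0
      · rw [← h0, zero_mul]; exact hu0.le
      · have : ‖g‖ ≤ u / ‖Φ‖ := by
          refine ContinuousLinearMap.opNorm_le_of_unit_norm (by positivity) fun x hx => ?_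
          have := hb (‖Φ‖ • x) (by rw [norm_smul, hx, Real.norm_eq_abs, abs_of_pos h0, mul_one])
          rw [map_smul, smul_eq_mul, abs_mul, abs_of_pos h0] at this
          rw [le_div_iff₀ h0, Real.norm_eq_abs]
          linarith
        rw [le_div_iff₀ h0] at this
        linarith
    have h4 : Φ g ≤ ‖Φ‖ * ‖g‖ := (le_abs_self _).trans (Φ.le_opNorm g)
    linarith
  obtain ⟨_, ⟨w, hw, rfl⟩, h⟩ := Metric.mem_closure_iff.1 hp ε hε
  refine ⟨w, by simpa using hw, fun f hf => ?_⟩
  have := (dist_le_pi_dist p (A w) ⟨f, hf⟩).trans_lt h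
  rw [Real.dist_eq, abs_sub_comm] at this
  exact this

/-- Uniform convexity of a seminorm, in a form that is stable under limits. -/
def UC {V : Type*} [AddCommGroup V] (q : V → ℝ) : Prop :=
  ∀ ε : ℝ, 0 < ε → ∃ δ : ℝ, 0 < δ ∧ ∀ x y : V,
    q (x - y) ≤ ε * max (q x) (q y) ∨ q (x + y) ≤ (2 - δ) * max (q x) (q y)

theorem milman_pettis [CompleteSpace W] {V : Type*} [AddCommGroup V] [Module ℝ V]
    (j : V →ₗ[ℝ] W) (hj : DenseRange j) (q : Seminorm ℝ V) (M : ℝ)
    (h1 : ∀ x, ‖j x‖ ≤ q x) (h2 : ∀ x, q x ≤ M * ‖j x‖) (huc : UC q) :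
    Function.Surjective (NormedSpace.inclusionInDoubleDual ℝ W) := by
  classical
  intro Φ
  let R : Set ℝ := {r | ∀ (F : Finset (StrongDual ℝ W)) (ε : ℝ), 0 < ε →
    ∃ x : V, q x ≤ r ∧ ∀ f ∈ F, |f (j x) - Φ f| ≤ ε}
  have hRne : R.Nonempty := by
    refine ⟨|M| * (‖Φ‖ + 1), fun F ε hε => ?_⟩
    obtain ⟨w, hw, hF⟩ := goldstine Φ F hε
    have ho : IsOpen ({v : W | ‖v‖ < ‖Φ‖ + 1} ∩ ⋂ f ∈ F, {v : W | |f v - Φ f| < ε}) := by
      refine (isOpen_lt continuous_norm continuous_const).inter ?_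
      refine isOpen_biInter_finset fun f _ => isOpen_lt ?_ continuous_const
      fun_prop
    obtain ⟨x, hx1, hx2⟩ := hj.exists_mem_open ho
      ⟨w, by simp only [mem_setOf_eq]; linarith, mem_iInter₂.2 hF⟩
    refine ⟨x, ?_, fun f hf => (mem_iInter₂.1 hx2 f hf).le⟩
    have a1 : M * ‖j x‖ ≤ |M| * ‖j x‖ := mul_le_mul_of_nonneg_right (le_abs_self M) (norm_nonneg _)
    have a2 : |M| * ‖j x‖ ≤ |M| * (‖Φ‖ + 1) := mul_le_mul_of_nonneg_left (le_of_lt hx1) (abs_nonneg M)
    exact (h2 x).trans (a1.trans a2)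
  have hR0 : ∀ r ∈ R, 0 ≤ r := by
    intro r hr
    obtain ⟨x, hx, -⟩ := hr ∅ 1 one_pos
    exact (apply_nonneg q x).trans hx
  have hRb : BddBelow R := ⟨0, hR0⟩
  set ρ := sInf R with hρ
  have hρ0 : 0 ≤ ρ := le_csInf hRne hR0
  have hup : ∀ r, ρ < r → r ∈ R := by
    intro r hr
    obtain ⟨r', hr', hlt⟩ := exists_lt_of_csInf_lt hRne hr
    intro F ε hε
    obtain ⟨x, hx, hF⟩ := hr' F ε hε
    exact ⟨x, hx.trans hlt.le, hF⟩
  have hex : ∀ i : Finset (StrongDual ℝ W) × ℕ, ∃ x : V, q x ≤ ρ + 1 / ((i.2 : ℝ) + 1) ∧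
      ∀ f ∈ i.1, |f (j x) - Φ f| ≤ 1 / ((i.2 : ℝ) + 1) := fun i =>
    hup _ (lt_add_of_pos_right ρ (by positivity)) i.1 _ (by positivity)
  choose x hx1 hx2 using hex
  have hmono : ∀ {m n : ℕ}, m ≤ n → 1 / ((n : ℝ) + 1) ≤ 1 / ((m : ℝ) + 1) := fun h =>
    Nat.one_div_le_one_div h
  have hcau : CauchySeq fun i => j (x i) := by
    rw [Metric.cauchySeq_iff]
    intro ε hε
    rcases hρ0.eq_or_lt with h0 | h0
    · obtain ⟨n, hn⟩ := exists_nat_one_div_lt (half_pos hε)
      refine ⟨(∅, n), fun a ha b hb => ?_⟩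
      have a1 := hx1 a
      have a2 := hx1 b
      have a3 := hmono ha.2
      have a4 := hmono hb.2
      have a5 := h1 (x a - x b)
      have a6 := map_sub_le_add q (x a) (x b)
      rw [dist_eq_norm, ← map_sub]
      simp only at a3 a4
      linarith
    · obtain ⟨δ, hδ, hq⟩ := huc (ε / (2 * (ρ + 1))) (by positivity)
      let δ' := min δ 1
      have hδ'0 : 0 < δ' := lt_min hδ one_pos
      have hδ'1 : δ' ≤ 1 := min_le_right _ _
      have hδ'2 : δ' ≤ δ := min_le_left _ _
      have hnot : (1 - δ' / 4) * ρ ∉ R := fun h => by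
        have := csInf_le hRb h
        nlinarith
      simp only [R, mem_setOf_eq, not_forall, not_exists, not_and] at hnot
      obtain ⟨F, e, he, hF⟩ := hnot
      obtain ⟨n, hn⟩ := exists_nat_one_div_lt (lt_min he (lt_min one_pos
        (show 0 < δ' * ρ / 4 by positivity)))
      have hn1 : 1 / ((n : ℝ) + 1) < e := hn.trans_le (min_le_left _ _)
      have hn2 : 1 / ((n : ℝ) + 1) < 1 := hn.trans_le ((min_le_right _ _).trans (min_le_left _ _))
      have hn3 : 1 / ((n : ℝ) + 1) < δ' * ρ / 4 :=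
        hn.trans_le ((min_le_right _ _).trans (min_le_right _ _))
      refine ⟨(F, n), fun a ha b hb => ?_⟩
      have a1 := hx1 a
      have a2 := hx1 b
      have a3 := hmono ha.2
      have a4 := hmono hb.2
      simp only at a3 a4
      have hm : max (q (x a)) (q (x b)) ≤ ρ + 1 / ((n : ℝ) + 1) := max_le (by linarith) (by linarith)
      have hm0 : 0 ≤ max (q (x a)) (q (x b)) := le_max_of_le_left (apply_nonneg q _)
      rcases hq (x a) (x b) with h | h
      · rw [dist_eq_norm, ← map_sub]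
        have b1 : ε / (2 * (ρ + 1)) * max (q (x a)) (q (x b)) ≤ ε / (2 * (ρ + 1)) * (ρ + 1) :=
          mul_le_mul_of_nonneg_left (by linarith) (by positivity)
        have b2 : ε / (2 * (ρ + 1)) * (ρ + 1) = ε / 2 := by field_simp
        linarith [h1 (x a - x b)]
      · exfalso
        have c1 : q ((1 / 2 : ℝ) • (x a + x b)) ≤ (1 - δ' / 4) * ρ := by
          rw [map_smul_eq_mul, Real.norm_eq_abs, abs_of_pos (by norm_num : (0 : ℝ) < 1 / 2)]
          have d1 : (2 - δ) * max (q (x a)) (q (x b)) ≤ (2 - δ') * max (q (x a)) (q (x b)) :=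
            mul_le_mul_of_nonneg_right (by linarith) hm0
          have d2 : (2 - δ') * max (q (x a)) (q (x b)) ≤ (2 - δ') * (ρ + δ' * ρ / 4) :=
            mul_le_mul_of_nonneg_left (by linarith) (by linarith)
          have d3 : 0 ≤ δ' * δ' * ρ := by positivity
          nlinarith
        obtain ⟨f, hf, hne⟩ := hF _ c1
        apply hne
        have e1 := hx2 a f (ha.1 hf)
        have e2 := hx2 b f (hb.1 hf)
        rw [map_smul, map_add, map_smul, map_add, smul_eq_mul]
        rw [abs_le] at e1 e2 ⊢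
        constructor <;> linarith [e1.1, e1.2, e2.1, e2.2]
  obtain ⟨w, hw⟩ := cauchySeq_tendsto_of_complete hcau
  refine ⟨w, ?_⟩
  ext f
  rw [NormedSpace.dual_def]
  have t1 : Tendsto (fun i => f (j (x i))) atTop (𝓝 (f w)) := (f.continuous.tendsto w).comp hw
  have t2 : Tendsto (fun i => f (j (x i))) atTop (𝓝 (Φ f)) := by
    rw [Metric.tendsto_atTop]
    intro ε hε
    obtain ⟨n, hn⟩ := exists_nat_one_div_lt hε
    refine ⟨({f}, n), fun a ha => ?_⟩
    have e1 := hx2 a f (ha.1 (Finset.mem_singleton_self f))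
    have a3 := hmono ha.2
    rw [Real.dist_eq]
    simp only at a3
    linarith
  exact tendsto_nhds_unique t1 t2

end Vale.Agent.N079B
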