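import Vale.Agent.N079.Final
import Vale.Agent.N079B.MP
import Mathlib.Analysis.Normed.Module.Completion

/-! Approximate common fixed points in a seminormed space that carries an equivalent uniformly
convex seminorm: pass to the completion. -/

set_option linter.all false

open Filter Topology Set

namespace Vale.Agent.N079B

open Vale.Agent.N079

theorem exists_extension {P Y : Type*} [PseudoMetricSpace P] [MetricSpace Y] [CompleteSpace Y]
    (j : P → Y) (hj : Isometry j) (hd : DenseRange j) (f : P → P)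
    (hf : ∀ a b, dist (f a) (f b) ≤ dist a b) :
    ∃ g : Y → Y, Continuous g ∧ (∀ a, g (j a) = j (f a)) ∧ ∀ a b, dist (g a) (g b) ≤ dist a b := by
  have hu : UniformContinuous fun a => j (f a) :=
    hj.uniformContinuous.comp (LipschitzWith.mk_one hf).uniformContinuous
  have hc := (uniformContinuous_uniformly_extend hj.isUniformInducing hd hu).continuous
  have he := uniformly_extend_of_ind hj.isUniformInducing hd hu
  refine ⟨_, hc, he, fun a b => ?_⟩
  refine hd.induction_on₂ (p := fun a b => dist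
    ((hj.isUniformInducing.isDenseInducing hd).extend (fun a => j (f a)) a)
    ((hj.isUniformInducing.isDenseInducing hd).extend (fun a => j (f a)) b) ≤ dist a b)
    (isClosed_le ((hc.comp continuous_fst).dist (hc.comp continuous_snd)) continuous_dist)
    (fun a b => ?_) a b
  rw [he, he, hj.dist_eq, hj.dist_eq]
  exact hf a b

theorem approx_fixed_norm {V : Type*} [SeminormedAddCommGroup V] [NormedSpace ℝ V]
    (q : Seminorm ℝ V) (M : ℝ) (h1 : ∀ x, ‖x‖ ≤ q x) (h2 : ∀ x, q x ≤ M * ‖x‖) (huc : UC q)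
    {D : Set V} (hD : Convex ℝ D) {S : Type*} [Semigroup S] (hS : Good S) (T : S → D → D)
    (hT : ∀ (s : S) (a b : D), ‖(T s a : V) - (T s b : V)‖ ≤ ‖(a : V) - (b : V)‖)
    (hmul : ∀ (s t : S) (a : D), T (s * t) a = T s (T t a)) (a₀ : D) (B : ℝ)
    (hb : ∀ s, ‖(T s a₀ : V)‖ ≤ B) {θ : ℝ} (hθ : 0 < θ) :
    ∃ x : D, ∀ s, ‖(T s x : V) - (x : V)‖ ≤ θ := by
  let W := UniformSpace.Completion V
  let i : V →ₗᵢ[ℝ] W := UniformSpace.Completion.toComplₗᵢ
  have hid : DenseRange i := UniformSpace.Completion.denseRange_coe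
  have hW : Function.Surjective (NormedSpace.inclusionInDoubleDual ℝ W) :=
    milman_pettis i.toLinearMap hid q M (fun x => (i.norm_map x).le.trans (h1 x))
      (fun x => (h2 x).trans (congrArg (M * ·) (i.norm_map x)).ge) huc
  let C : Set W := closure (i '' D)
  have hcl : IsClosed C := isClosed_closure
  have hco : Convex ℝ C := (hD.linear_image i.toLinearMap).closure
  haveI : CompleteSpace C := hcl.completeSpace_coe
  let j : D → C := fun x => ⟨i x, subset_closure ⟨x, x.2, rfl⟩⟩
  have hj : Isometry j := Isometry.of_dist_eq fun a b => by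
    rw [Subtype.dist_eq, Subtype.dist_eq]
    exact i.isometry.dist_eq _ _
  have hd : DenseRange j := by
    rw [Metric.denseRange_iff]
    intro w r hr
    obtain ⟨_, ⟨x, hx, rfl⟩, h⟩ := Metric.mem_closure_iff.1 w.2 r hr
    exact ⟨⟨x, hx⟩, h⟩
  have hex := fun s => exists_extension j hj hd (T s) fun a b => by
    rw [Subtype.dist_eq, Subtype.dist_eq, dist_eq_norm, dist_eq_norm]
    exact hT s a b
  choose U hUc hUe hUd using hex
  have hUm : ∀ (s t : S) (a : C), U (s * t) a = U s (U t a) := by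
    intro s t a
    refine hd.induction_on (p := fun a => U (s * t) a = U s (U t a)) a
      (isClosed_eq (hUc _) ((hUc s).comp (hUc t))) fun x => ?_
    rw [hUe, hUe, hUe, hmul]
  obtain ⟨w, hw⟩ := (semigroup_main hW hS hcl hco U (fun s a b => by
    have := hUd s a b
    rwa [Subtype.dist_eq, Subtype.dist_eq, dist_eq_norm, dist_eq_norm] at this) hUm).1.2
    ⟨j a₀, (Metric.isBounded_closedBall (x := (0 : W)) (r := B)).subset (by
      rintro _ ⟨s, rfl⟩
      simp only [hUe, mem_closedBall_zero_iff]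
      exact (i.norm_map _).le.trans (hb s))⟩
  obtain ⟨x, hx⟩ := Metric.denseRange_iff.1 hd w (θ / 2) (half_pos hθ)
  refine ⟨x, fun s => ?_⟩
  have a1 := hUd s w (j x)
  rw [hw s, hUe] at a1
  have a2 := dist_triangle_left (j (T s x)) (j x) w
  rw [hj.dist_eq, Subtype.dist_eq, dist_eq_norm] at a2
  linarith

theorem approx_fixed {V : Type*} [AddCommGroup V] [Module ℝ V]
    (p q : Seminorm ℝ V) (M : ℝ) (h1 : ∀ x, p x ≤ q x) (h2 : ∀ x, q x ≤ M * p x) (huc : UC q)
    {D : Set V} (hD : Convex ℝ D) {S : Type*} [Semigroup S] (hS : Good S) (T : S → D → D)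
    (hT : ∀ (s : S) (a b : D), p ((T s a : V) - (T s b : V)) ≤ p ((a : V) - (b : V)))
    (hmul : ∀ (s t : S) (a : D), T (s * t) a = T s (T t a)) (a₀ : D) (B : ℝ)
    (hb : ∀ s, p (T s a₀ : V) ≤ B) {θ : ℝ} (hθ : 0 < θ) :
    ∃ x : D, ∀ s, p ((T s x : V) - (x : V)) ≤ θ := by
  letI : SeminormedAddCommGroup V := p.toAddGroupSeminorm.toSeminormedAddCommGroup
  letI : NormedSpace ℝ V := ⟨fun a x => (map_smul_eq_mul p a x).le⟩
  exact approx_fixed_norm q M h1 h2 huc hD hS T hT hmul a₀ B hb hθ

end Vale.Agent.N079B
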