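import Vale.Agent.N079B.Ultra

/-! Fixed points of asymptotically `k`-Lipschitzian actions. -/

set_option linter.all false

open Filter Topology Set

namespace Vale.Agent.N079B

open Vale.Agent.N079

universe u v

theorem exists_limit {Y : Type*} [MetricSpace Y] [CompleteSpace Y] (P : Y → ℝ → Prop) (B : ℝ)
    (hB : 0 ≤ B) (step : ∀ z R, 0 < R → P z R → ∃ y, dist y z ≤ B * R ∧ P y (R / 2)) (z : Y)
    (R : ℝ) (hR : 0 < R) (h : P z R) :
    ∃ w, dist w z ≤ 2 * B * R ∧ ∀ ε, 0 < ε → ∃ y r, r ≤ ε ∧ dist y w ≤ ε ∧ P y r := by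
  have hex : ∀ (n : ℕ) (a : {y // P y (R / 2 ^ n)}), ∃ b : {y // P y (R / 2 ^ (n + 1))},
      dist b.1 a.1 ≤ B * (R / 2 ^ n) := by
    intro n a
    obtain ⟨y, h1, h2⟩ := step a.1 _ (by positivity) a.2
    exact ⟨⟨y, by rw [pow_succ, ← div_div]; exact h2⟩, h1⟩
  choose f hf using hex
  let x : ∀ n : ℕ, {y // P y (R / 2 ^ n)} := fun n =>
    Nat.rec (motive := fun n => {y // P y (R / 2 ^ n)}) ⟨z, by simpa using h⟩ f n
  have hx : ∀ n, dist (x n).1 (x (n + 1)).1 ≤ 2 * B * R / 2 / 2 ^ n := by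
    intro n
    rw [dist_comm]
    refine (hf n (x n)).trans (le_of_eq ?_)
    ring
  obtain ⟨w, hw⟩ := cauchySeq_tendsto_of_complete (cauchySeq_of_le_geometric_two hx)
  refine ⟨w, ?_, fun ε hε => ?_⟩
  · rw [dist_comm]
    exact dist_le_of_le_geometric_two_of_tendsto₀ hx hw
  · have t : Tendsto (fun n : ℕ => R / 2 ^ n) atTop (𝓝 0) :=
      tendsto_const_nhds.div_atTop (tendsto_pow_atTop_atTop_of_one_lt one_lt_two)
    obtain ⟨n, h1, h2⟩ := ((t.eventually (ge_mem_nhds hε)).and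
      (hw.eventually (Metric.closedBall_mem_nhds w hε))).exists
    exact ⟨(x n).1, _, h1, h2, (x n).2⟩

/-- The left ideal `S a` as a subsemigroup. -/
def ideal {S : Type*} [Semigroup S] (a : S) : Subsemigroup S where
  carrier := {t | ∃ s, t = s * a}
  mul_mem' := by
    rintro _ _ ⟨s, rfl⟩ ⟨t, rfl⟩
    exact ⟨s * a * t, by simp only [mul_assoc]⟩

theorem rev_ideal {S : Type*} [Semigroup S] (hS : Rev S) (a : S) : Rev (ideal a) := by
  refine ⟨fun x y => ?_, fun x y => ?_⟩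
  · obtain ⟨p, q, h⟩ := hS.1 x y
    refine ⟨⟨p * a, p, rfl⟩, ⟨q * a, q, rfl⟩, Subtype.ext ?_⟩
    show (x : S) * (p * a) = y * (q * a)
    rw [← mul_assoc, h, mul_assoc]
  · obtain ⟨p, q, h⟩ := hS.2 (a * x) (a * y)
    refine ⟨⟨p * a, p, rfl⟩, ⟨q * a, q, rfl⟩, Subtype.ext ?_⟩
    show p * a * (x : S) = q * a * y
    rw [mul_assoc, h, mul_assoc]

theorem key_scaled (Z : Type*) [NormedAddCommGroup Z] [NormedSpace ℝ Z] [UniformConvexSpace Z]
    (M : ℝ) : ∃ η : ℝ, 0 < η ∧ ∃ B : ℝ, 0 ≤ B ∧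
      ∀ (X : Type u) [NormedAddCommGroup X] [NormedSpace ℝ X] (e : X →ₗ[ℝ] Z),
      (∀ x, ‖x‖ ≤ ‖e x‖ ∧ ‖e x‖ ≤ M * ‖x‖) → ∀ C : Set X, Convex ℝ C →
      ∀ (S : Type v) [Semigroup S], Rev S → ∀ T : S → C → C,
      (∀ s t x, T (s * t) x = T s (T t x)) → ∀ R : ℝ, 0 < R →
      (∀ s x y, dist (T s x) (T s y) ≤ (1 + η) * dist x y + η * R) → ∀ z : C,
      (∀ s, dist (T s z) z ≤ R) → ∃ y : C, dist y z ≤ B * R ∧ ∀ s, dist (T s y) y ≤ R / 2 := by
  classical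
  obtain ⟨η, hη, B, hB, h⟩ := key.{u, v} Z M (θ := 1 / 2) (by norm_num)
  refine ⟨η, hη, B, hB, fun X _ _ e he C hC S _ hS T hmul R hR hL z hz => ?_⟩
  let C' : Set X := {x | (z : X) + R • x ∈ C}
  let A : S → X → X := fun s x =>
    if h : x ∈ C' then R⁻¹ • ((T s ⟨(z : X) + R • x, h⟩ : X) - z) else x
  have hA : ∀ (s : S) (x : X) (h : x ∈ C'),
      A s x = R⁻¹ • ((T s ⟨(z : X) + R • x, h⟩ : X) - z) := fun s x h => by simp only [A, dif_pos h]
  have hback : ∀ w : X, (z : X) + R • (R⁻¹ • (w - z)) = w := fun w => by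
    rw [smul_inv_smul₀ hR.ne']; abel
  have hn : ∀ w : X, ‖R⁻¹ • w‖ = ‖w‖ / R := fun w => by
    rw [norm_smul, Real.norm_eq_abs, abs_of_pos (inv_pos.2 hR), div_eq_inv_mul]
  have hn' : ∀ w : X, ‖R • w‖ = R * ‖w‖ := fun w => by
    rw [norm_smul, Real.norm_eq_abs, abs_of_pos hR]
  have hC' : Convex ℝ C' := by
    intro x hx y hy a b ha hb hab
    have := hC hx hy ha hb hab
    show (z : X) + R • (a • x + b • y) ∈ C
    convert this using 1
    have e1 : (z : X) = a • (z : X) + b • (z : X) := by rw [← add_smul, hab, one_smul]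
    conv_lhs => rw [e1]
    module
  have h0 : (0 : X) ∈ C' := by
    show (z : X) + R • (0 : X) ∈ C
    simpa using z.2
  have hmaps : ∀ s, MapsTo (A s) C' C' := by
    intro s x hx
    show (z : X) + R • A s x ∈ C
    rw [hA s x hx, hback]
    exact (T s _).2
  obtain ⟨y, hy, hyB, hfix⟩ := h X _ _ e he C' hC' h0 S _ hS A hmaps
    (fun s t x hx => by
      rw [hA _ x hx, hA s _ (hmaps t hx), hmul]
      congr 4
      refine Subtype.ext ?_
      simp only [hA t x hx, hback])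
    (fun s x hx y hy => by
      rw [hA s x hx, hA s y hy, ← smul_sub, hn, sub_sub_sub_cancel_right, div_le_iff₀ hR]
      have := hL s ⟨_, hx⟩ ⟨_, hy⟩
      rw [Subtype.dist_eq, Subtype.dist_eq, dist_eq_norm, dist_eq_norm] at this
      simp only [add_sub_add_left_eq_sub, ← smul_sub, hn'] at this
      linarith)
    (fun s => by
      rw [hA s 0 h0, hn, div_le_one hR]
      have := hz s
      rw [Subtype.dist_eq, dist_eq_norm] at this
      simpa using this)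
  refine ⟨⟨_, hy⟩, ?_, fun s => ?_⟩
  · rw [Subtype.dist_eq, dist_eq_norm]
    simp only [add_sub_cancel_left, hn']
    nlinarith
  · have := hfix s
    rw [hA s y hy] at this
    rw [Subtype.dist_eq, dist_eq_norm]
    have e1 : (T s ⟨_, hy⟩ : X) - ((z : X) + R • y) =
        R • (R⁻¹ • ((T s ⟨(z : X) + R • y, hy⟩ : X) - z) - y) := by
      rw [smul_sub, smul_inv_smul₀ hR.ne']; abel
    simp only
    rw [e1, hn']
    nlinarith

theorem stab_semigroup (Z : Type*) [NormedAddCommGroup Z] [NormedSpace ℝ Z] [UniformConvexSpace Z]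
    (M : ℝ) : ∃ k : ℝ, 1 < k ∧ ∃ K : ℝ,
      ∀ (X : Type u) [NormedAddCommGroup X] [NormedSpace ℝ X] [CompleteSpace X] (e : X →ₗ[ℝ] Z),
      (∀ x, ‖x‖ ≤ ‖e x‖ ∧ ‖e x‖ ≤ M * ‖x‖) → ∀ C : Set X, IsClosed C → Convex ℝ C →
      ∀ (S : Type v) [Semigroup S], Rev S → ∀ T : S → C → C,
      (∀ s t x, T (s * t) x = T s (T t x)) → (∀ s, Continuous (T s)) →
      (∀ ε : ℝ, 0 < ε → ∃ a, ∀ s x y, dist (T (s * a) x) (T (s * a) y) ≤ k * dist x y + ε) →
      ∀ (z : C) (R : ℝ), (∀ s, dist (T s z) z ≤ R) →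
      ∃ y : C, dist y z ≤ K * R ∧ ∀ s, T s y = y := by
  obtain ⟨η, hη, B, hB, h⟩ := key_scaled.{u, v} Z M
  refine ⟨1 + η, by linarith, 2 * B, fun X _ _ _ e he C hcl hC S _ hS T hmul hc hL z R hz => ?_⟩
  haveI : CompleteSpace C := hcl.completeSpace_coe
  obtain ⟨a₀, -⟩ := hL 1 one_pos
  rcases (dist_nonneg.trans (hz a₀)).eq_or_lt with h0 | hR
  · refine ⟨z, by simp [← h0], fun s => ?_⟩
    exact dist_le_zero.1 (h0 ▸ hz s)
  have hcomb : ∀ a b : S, ∃ c : S, (∀ s, ∃ t, s * c = t * a) ∧ ∀ s, ∃ t, s * c = t * b := by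
    intro a b
    obtain ⟨p, q, hpq⟩ := hS.2 a b
    exact ⟨p * a, fun s => ⟨s * p, (mul_assoc _ _ _).symm⟩,
      fun s => ⟨s * q, by rw [hpq, mul_assoc]⟩⟩
  obtain ⟨w, hw, hlim⟩ := exists_limit (fun (y : C) r => ∃ a, ∀ s, dist (T (s * a) y) y ≤ r) B hB
    (by
      rintro y r hr ⟨a, ha⟩
      obtain ⟨b, hb⟩ := hL (η * r) (by positivity)
      obtain ⟨c, hca, hcb⟩ := hcomb a b
      obtain ⟨y', h1, h2⟩ := h X e he C hC (ideal c) (rev_ideal hS c) (fun s => T s)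
        (fun s t x => hmul s t x) r hr
        (by
          rintro ⟨_, s, rfl⟩ x x'
          obtain ⟨t, ht⟩ := hcb s
          simp only [ht]
          exact hb t x x') y
        (by
          rintro ⟨_, s, rfl⟩
          obtain ⟨t, ht⟩ := hca s
          simp only [ht]
          exact ha t)
      exact ⟨y', h1, c, fun s => h2 ⟨s * c, s, rfl⟩⟩) z R hR ⟨a₀, fun s => hz _⟩
  refine ⟨w, hw, fun t => ?_⟩
  have hclose : ∀ ε : ℝ, 0 < ε → ∃ c, ∀ s, dist (T (s * c) w) w ≤ ε := by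
    intro ε hε
    obtain ⟨y, r, hr, hy, a, ha⟩ := hlim (ε / (η + 4)) (by positivity)
    obtain ⟨b, hb⟩ := hL (ε / (η + 4)) (by positivity)
    obtain ⟨c, hca, hcb⟩ := hcomb a b
    refine ⟨c, fun s => ?_⟩
    obtain ⟨t1, ht1⟩ := hca s
    obtain ⟨t2, ht2⟩ := hcb s
    have a1 := ha t1
    have a2 := hb t2 w y
    rw [← ht1] at a1
    rw [← ht2, dist_comm w y] at a2
    have a3 := dist_triangle4 (T (s * c) w) (T (s * c) y) y w
    have a4 : (1 + η) * dist y w ≤ (1 + η) * (ε / (η + 4)) :=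
      mul_le_mul_of_nonneg_left hy (by linarith)
    have a5 : (η + 4) * (ε / (η + 4)) = ε := by field_simp
    linarith
  refine eq_of_forall_dist_le fun ε hε => ?_
  obtain ⟨δ, hδ, hd⟩ := Metric.continuous_iff.1 (hc t) w (ε / 2) (half_pos hε)
  obtain ⟨c, hc'⟩ := hclose (min (δ / 2) (ε / 2)) (lt_min (half_pos hδ) (half_pos hε))
  have a1 := hd (T (t * c) w) ((hc' t).trans_lt ((min_le_left _ _).trans_lt (half_lt_self hδ)))
  have a2 := (hc' (t * t)).trans (min_le_right _ _)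
  rw [mul_assoc, hmul] at a2
  have a3 := dist_triangle_left (T t w) w (T t (T (t * c) w))
  linarith

theorem stab_main (Z : Type*) [NormedAddCommGroup Z] [NormedSpace ℝ Z] [UniformConvexSpace Z]
    (M : ℝ) : ∃ k : ℝ, 1 < k ∧ ∃ K : ℝ,
      ∀ (X : Type u) [NormedAddCommGroup X] [NormedSpace ℝ X] [CompleteSpace X] (e : X →ₗ[ℝ] Z),
      (∀ x, ‖x‖ ≤ ‖e x‖ ∧ ‖e x‖ ≤ M * ‖x‖) → ∀ C : Set X, IsClosed C → Convex ℝ C →
      (∀ T : C → C, Continuous T →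
        (∀ ε : ℝ, 0 < ε → ∀ᶠ n in atTop, ∀ x y, dist (T^[n] x) (T^[n] y) ≤ k * dist x y + ε) →
        ∀ (z : C) (R : ℝ), (∀ n, dist (T^[n] z) z ≤ R) → ∃ y : C, dist y z ≤ K * R ∧ T y = y) ∧
      ∀ (S : Type v) [Semigroup S], Rev S → ∀ T : S → C → C,
      (∀ s t x, T (s * t) x = T s (T t x)) → (∀ s, Continuous (T s)) →
      (∀ ε : ℝ, 0 < ε → ∃ a, ∀ s x y, dist (T (s * a) x) (T (s * a) y) ≤ k * dist x y + ε) →
      ∀ (z : C) (R : ℝ), (∀ s, dist (T s z) z ≤ R) →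
      ∃ y : C, dist y z ≤ K * R ∧ ∀ s, T s y = y := by
  obtain ⟨k, hk, K, h⟩ := stab_semigroup.{u, v} Z M
  refine ⟨k, hk, K, fun X _ _ _ e he C hcl hC => ⟨fun T hc hL z R hz => ?_, h X e he C hcl hC⟩⟩
  obtain ⟨y, h1, h2⟩ := h X e he C hcl hC (ULift.{v} (Multiplicative ℕ))
    ⟨fun a b => ⟨b, a, mul_comm a b⟩, fun a b => ⟨b, a, mul_comm b a⟩⟩
    (fun s => T^[s.down.toAdd]) (fun s t x => Function.iterate_add_apply T _ _ x)
    (fun s => hc.iterate _)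
    (fun ε hε => by
      obtain ⟨N, hN⟩ := eventually_atTop.1 (hL ε hε)
      exact ⟨⟨Multiplicative.ofAdd N⟩, fun s => hN (s.down.toAdd + N) (Nat.le_add_left _ _)⟩)
    z R (fun s => hz _)
  exact ⟨y, h1, h2 ⟨Multiplicative.ofAdd 1⟩⟩

end Vale.Agent.N079B
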