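import Vale.Agent.N079B.Approx
import Mathlib.Order.Filter.Ultrafilter.Basic
import Mathlib.Analysis.Convex.Uniform

/-! The ultraproduct argument: almost nonexpansive actions have approximate fixed points, with
constants that depend only on the uniformly convex model. -/

set_option linter.all false

open Filter Topology Set

namespace Vale.Agent.N079B

open Vale.Agent.N079

universe u v

/-- Left and right reversible semigroups. -/
def Rev (S : Type*) [Semigroup S] : Prop :=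
  (∀ a b : S, ∃ p q, a * p = b * q) ∧ ∀ a b : S, ∃ p q, p * a = q * b

theorem exists_ulim (a : ℕ → ℝ) (B : ℝ) (h : ∀ n, |a n| ≤ B) :
    ∃ l, Tendsto a (hyperfilter ℕ) (𝓝 l) := by
  obtain ⟨l, -, hl⟩ := (isCompact_Icc (a := -B) (b := B)).ultrafilter_le_nhds
    ((hyperfilter ℕ).map a) (by
      rw [le_principal_iff, Ultrafilter.mem_coe, Ultrafilter.mem_map]
      exact Eventually.of_forall fun n => abs_le.1 (h n))
  exact ⟨l, hl⟩

section

variable (X : ℕ → Type*) [∀ n, NormedAddCommGroup (X n)] [∀ n, NormedSpace ℝ (X n)]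

/-- Bounded sequences. -/
def Bdd : Submodule ℝ (∀ n, X n) where
  carrier := {x | ∃ B : ℝ, ∀ n, ‖x n‖ ≤ B}
  zero_mem' := ⟨0, fun n => by simp⟩
  add_mem' := by
    rintro x y ⟨A, hA⟩ ⟨B, hB⟩
    exact ⟨A + B, fun n => (norm_add_le _ _).trans (add_le_add (hA n) (hB n))⟩
  smul_mem' := by
    rintro c x ⟨A, hA⟩
    exact ⟨‖c‖ * A, fun n => (norm_smul_le c (x n)).trans
      (mul_le_mul_of_nonneg_left (hA n) (norm_nonneg c))⟩

variable {X}

theorem exists_useminorm (r : ∀ n, Seminorm ℝ (X n)) (K : ℝ) (h : ∀ n x, r n x ≤ K * ‖x‖) :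
    ∃ P : Seminorm ℝ (Bdd X), ∀ x : Bdd X,
      Tendsto (fun n => r n (x.1 n)) (hyperfilter ℕ) (𝓝 (P x)) := by
  have hex : ∀ x : Bdd X, ∃ l, Tendsto (fun n => r n (x.1 n)) (hyperfilter ℕ) (𝓝 l) := by
    intro x
    obtain ⟨B, hB⟩ := x.2
    refine exists_ulim _ (|K| * B) fun n => ?_
    rw [abs_of_nonneg (apply_nonneg _ _)]
    exact (h n _).trans ((mul_le_mul_of_nonneg_right (le_abs_self K) (norm_nonneg _)).trans
      (mul_le_mul_of_nonneg_left (hB n) (abs_nonneg K)))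
  choose P hP using hex
  refine ⟨Seminorm.of P (fun x y => ?_) (fun a x => ?_), hP⟩
  · exact le_of_tendsto_of_tendsto' (hP (x + y)) ((hP x).add (hP y)) fun n =>
      map_add_le_add (r n) _ _
  · refine tendsto_nhds_unique (hP (a • x)) ?_
    have := (hP x).const_mul ‖a‖
    refine this.congr fun n => ?_
    exact (map_smul_eq_mul (r n) a (x.1 n)).symm

theorem ultra (q : ∀ n, Seminorm ℝ (X n)) (M : ℝ) (h1 : ∀ n x, ‖x‖ ≤ q n x)
    (h2 : ∀ n x, q n x ≤ M * ‖x‖)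
    (huc : ∀ ε : ℝ, 0 < ε → ∃ δ : ℝ, 0 < δ ∧ ∀ n (x y : X n),
      q n (x - y) ≤ ε * max (q n x) (q n y) ∨ q n (x + y) ≤ (2 - δ) * max (q n x) (q n y))
    (C : ∀ n, Set (X n)) (hC : ∀ n, Convex ℝ (C n)) (h0 : ∀ n, 0 ∈ C n)
    {S : ℕ → Type*} [∀ n, Semigroup (S n)] (hS : ∀ n, Rev (S n))
    (T : ∀ n, S n → X n → X n) (hmaps : ∀ n s, MapsTo (T n s) (C n) (C n))
    (hmul : ∀ n s t, ∀ x ∈ C n, T n (s * t) x = T n s (T n t x))
    (hL : ∀ n s, ∀ x ∈ C n, ∀ y ∈ C n,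
      ‖T n s x - T n s y‖ ≤ (1 + 1 / ((n : ℝ) + 1)) * ‖x - y‖ + 1 / ((n : ℝ) + 1))
    (hb : ∀ n s, ‖T n s 0‖ ≤ 1) {θ : ℝ} (hθ : 0 < θ)
    (hbad : ∀ n, ∀ y ∈ C n, ‖y‖ ≤ n → ∃ s, θ < ‖T n s y - y‖) : False := by
  obtain ⟨P, hP⟩ := exists_useminorm (fun n => normSeminorm ℝ (X n)) 1 (fun n x => by simp)
  obtain ⟨Q, hQ⟩ := exists_useminorm q M h2
  simp only [coe_normSeminorm] at hP
  have k1 : ∀ x, P x ≤ Q x := fun x => le_of_tendsto_of_tendsto' (hP x) (hQ x) fun n => h1 n _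
  have k2 : ∀ x, Q x ≤ M * P x := fun x =>
    le_of_tendsto_of_tendsto' (hQ x) ((hP x).const_mul M) fun n => h2 n _
  have k3 : UC Q := by
    intro ε hε
    obtain ⟨δ, hδ, h⟩ := huc ε hε
    refine ⟨δ, hδ, fun x y => ?_⟩
    have hm := (hQ x).max (hQ y)
    have := Ultrafilter.eventually_or.1
      (Eventually.of_forall (f := hyperfilter ℕ) fun n => h n (x.1 n) (y.1 n))
    rcases this with h' | h'
    · exact Or.inl (le_of_tendsto_of_tendsto (hQ (x - y)) (hm.const_mul ε) h')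
    · exact Or.inr (le_of_tendsto_of_tendsto (hQ (x + y)) (hm.const_mul (2 - δ)) h')
  let D : Set (Bdd X) := {x | ∀ n, x.1 n ∈ C n}
  have hD : Convex ℝ D := fun x hx y hy a b ha hb' hab n => hC n (hx n) (hy n) ha hb' hab
  have hη : ∀ n : ℕ, 1 / ((n : ℝ) + 1) ≤ 1 := fun n => by
    rw [div_le_one (by positivity)]
    linarith [n.cast_nonneg (α := ℝ)]
  have hmem : ∀ (s : ∀ n, S n) (x : D), (fun n => T n (s n) (x.1.1 n)) ∈ Bdd X := by
    intro s x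
    obtain ⟨B, hB⟩ := x.1.2
    refine ⟨2 * B + 2, fun n => ?_⟩
    have a1 := hL n (s n) _ (x.2 n) _ (h0 n)
    have a2 := hb n (s n)
    have a3 := norm_le_norm_add_norm_sub' (T n (s n) (x.1.1 n)) (T n (s n) 0)
    have a4 := hB n
    have a5 := hη n
    rw [sub_zero] at a1
    have a6 : (1 + 1 / ((n : ℝ) + 1)) * ‖x.1.1 n‖ ≤ 2 * ‖x.1.1 n‖ :=
      mul_le_mul_of_nonneg_right (by linarith) (norm_nonneg _)
    linarith
  let U : (∀ n, S n) → D → D := fun s x => ⟨⟨_, hmem s x⟩, fun n => hmaps n (s n) (x.2 n)⟩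
  have hG : Good (∀ n, S n) := by
    refine Or.inr ⟨fun a b => ?_, fun a b => ?_⟩
    · choose p r h using fun n => (hS n).1 (a n) (b n)
      exact ⟨p, r, funext h⟩
    · choose p r h using fun n => (hS n).2 (a n) (b n)
      exact ⟨p, r, funext h⟩
  have hη0 : Tendsto (fun n : ℕ => 1 / ((n : ℝ) + 1)) (hyperfilter ℕ) (𝓝 0) :=
    tendsto_one_div_add_atTop_nhds_zero_nat.mono_left Nat.hyperfilter_le_atTop
  obtain ⟨x, hx⟩ := approx_fixed P Q M k1 k2 k3 hD hG U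
    (fun s a b => by
      have t := (((tendsto_const_nhds (x := (1 : ℝ))).add hη0).mul (hP (a.1 - b.1))).add hη0
      simp only [add_zero, one_mul] at t
      exact le_of_tendsto_of_tendsto' (hP _) t fun n => hL n (s n) _ (a.2 n) _ (b.2 n))
    (fun s t a => Subtype.ext (Subtype.ext (funext fun n => hmul n (s n) (t n) _ (a.2 n))))
    ⟨0, fun n => h0 n⟩ 1
    (fun s => le_of_tendsto' (hP _) fun n => hb n (s n)) (half_pos hθ)
  have hs : ∀ n, ∃ s : S n, ‖x.1.1 n‖ ≤ n → θ < ‖T n s (x.1.1 n) - x.1.1 n‖ := by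
    intro n
    by_cases h : ‖x.1.1 n‖ ≤ n
    · obtain ⟨s, hs⟩ := hbad n _ (x.2 n) h
      exact ⟨s, fun _ => hs⟩
    · obtain ⟨s, -⟩ := hbad n 0 (h0 n) (by simp)
      exact ⟨s, fun h' => absurd h' h⟩
  choose s hs using hs
  obtain ⟨B, hB⟩ := x.1.2
  have hev : ∀ᶠ n : ℕ in hyperfilter ℕ, θ ≤ ‖T n (s n) (x.1.1 n) - x.1.1 n‖ :=
    ((tendsto_natCast_atTop_atTop.eventually_ge_atTop B).filter_mono
      Nat.hyperfilter_le_atTop).mono fun n hn => (hs n ((hB n).trans hn)).le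
  have := ge_of_tendsto (hP ((U s x).1 - x.1)) hev
  linarith [hx s]

end

theorem uc_norm (Z : Type*) [NormedAddCommGroup Z] [NormedSpace ℝ Z] [UniformConvexSpace Z] :
    UC fun z : Z => ‖z‖ := by
  intro ε hε
  obtain ⟨δ, hδ, h⟩ := exists_forall_closed_ball_dist_add_le_two_sub Z hε
  refine ⟨δ, hδ, fun x y => ?_⟩
  set r := max ‖x‖ ‖y‖ with hr
  have hx : ‖x‖ ≤ r := le_max_left _ _
  have hy : ‖y‖ ≤ r := le_max_right _ _
  rcases ((norm_nonneg x).trans hx).eq_or_lt with h0 | h0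
  · left
    have := norm_sub_le x y
    rw [← h0] at hx hy ⊢
    simp only
    linarith
  · by_cases hxy : ‖x - y‖ ≤ ε * r
    · exact Or.inl hxy
    · right
      have e : ∀ z : Z, ‖r⁻¹ • z‖ = ‖z‖ / r := fun z => by
        rw [norm_smul, Real.norm_eq_abs, abs_of_pos (inv_pos.2 h0), div_eq_inv_mul]
      have := h (x := r⁻¹ • x) (by rw [e, div_le_one h0]; exact hx) (y := r⁻¹ • y)
        (by rw [e, div_le_one h0]; exact hy)
        (by rw [← smul_sub, e, le_div_iff₀ h0]; exact (not_le.1 hxy).le)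
      rw [← smul_add, e, div_le_iff₀ h0] at this
      exact this

theorem key (Z : Type*) [NormedAddCommGroup Z] [NormedSpace ℝ Z] [UniformConvexSpace Z]
    (M : ℝ) {θ : ℝ} (hθ : 0 < θ) : ∃ η : ℝ, 0 < η ∧ ∃ B : ℝ, 0 ≤ B ∧
      ∀ (X : Type u) (_ : NormedAddCommGroup X) (_ : NormedSpace ℝ X) (e : X →ₗ[ℝ] Z),
      (∀ x, ‖x‖ ≤ ‖e x‖ ∧ ‖e x‖ ≤ M * ‖x‖) → ∀ C : Set X, Convex ℝ C → 0 ∈ C →
      ∀ (S : Type v) (_ : Semigroup S), Rev S → ∀ T : S → X → X, (∀ s, MapsTo (T s) C C) →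
      (∀ s t, ∀ x ∈ C, T (s * t) x = T s (T t x)) →
      (∀ s, ∀ x ∈ C, ∀ y ∈ C, ‖T s x - T s y‖ ≤ (1 + η) * ‖x - y‖ + η) → (∀ s, ‖T s 0‖ ≤ 1) →
      ∃ y ∈ C, ‖y‖ ≤ B ∧ ∀ s, ‖T s y - y‖ ≤ θ := by
  by_contra hcon
  push Not at hcon
  choose X i1 i2 e he C hC h0 S i3 hS T hmaps hmul hL hb hbad using
    fun n : ℕ => hcon (1 / ((n : ℝ) + 1)) (by positivity) n n.cast_nonneg
  refine ultra (X := X) (fun n => (normSeminorm ℝ Z).comp (e n)) M (fun n x => (he n x).1)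
    (fun n x => (he n x).2) (fun ε hε => ?_) C hC h0 hS T hmaps hmul hL hb hθ hbad
  obtain ⟨δ, hδ, h⟩ := uc_norm Z ε hε
  refine ⟨δ, hδ, fun n x y => ?_⟩
  simpa only [Seminorm.comp_apply, coe_normSeminorm, map_sub, map_add] using h (e n x) (e n y)

end Vale.Agent.N079B
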